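import Vale.Agent.P004F.Ix.Idx
import Vale.Agent.P014U.Pg.Bas

/-! # P014Y, block F: the Tate module at the odd prime has no local invariants -/

set_option linter.all false

open NumberField Matrix WeierstrassCurve.Affine
open scoped Classical

noncomputable section

namespace Vale.Agent.P014Y.F.En

open Vale.Agent.P022 P004K P179W P004F.Qx P004F.Qx.Fg P014U P027M.K
open P004M.TE (Pt ga Cv)
open Vale.Agent.P027M.S (Inert)
open Vale.Agent.P022D.W (dec inP_le_dec phi_mem exists_phi)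
open Vale.Agent.P022E.GW (Ov Fb)
open P004F.Ix (near res)
open P014U.X4M.TE (mt rho Tm bs cp_rho det_cyc)

section val

variable {Γ : Type} [LinearOrderedCommGroupWithZero Γ] {v : Valuation Qb Γ} {A B : ℤ}

/-- finitely many classes -/
theorem cls {R : Set Qb} {q : ℕ} {π : Qb} (hq : 1 < q) (p0 : π ≠ 0)
    (h1 : ∀ a ∈ R, v (a ^ q - a) < 1)
    (h2 : ∀ a ∈ R, ∀ b ∈ R, v (a - b) < 1 → (a - b) / π ∈ R) (M : ℕ) :
    ∃ T : Set Qb, T.Finite ∧ ∀ a ∈ R, ∃ t ∈ T, v (a - t) < v π ^ M := by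
  obtain ⟨T, f, hT⟩ := res (v := v) hq
  let r : Qb → Qb := fun t => if h : ∃ a ∈ R, v (a - t) < 1 then h.choose else 0
  have hr : ∀ a ∈ R, ∃ s ∈ r '' T, s ∈ R ∧ v (a - s) < 1 := fun a ha => by
    obtain ⟨t, ht, h⟩ := hT a (h1 a ha)
    have k : ∃ a ∈ R, v (a - t) < 1 := ⟨a, ha, h⟩
    refine ⟨_, ⟨t, ht, dif_pos k⟩, k.choose_spec.1, ?_⟩
    rw [← sub_sub_sub_cancel_right a _ t]
    exact v.map_sub_lt h k.choose_spec.2
  induction M with
  | zero => exact ⟨T, f, fun a ha => by simpa using hT a (h1 a ha)⟩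
  | succ M ih =>
    obtain ⟨T', f', h'⟩ := ih
    refine ⟨_, (f.image r).image2 (fun s t => s + π * t) f', fun a ha => ?_⟩
    obtain ⟨s, hs, k1, k2⟩ := hr a ha
    obtain ⟨t, ht, k3⟩ := h' _ (h2 a ha s k1 k2)
    refine ⟨_, Set.mem_image2_of_mem hs ht, ?_⟩
    rw [show a - (s + π * t) = π * ((a - s) / π - t) by field_simp; ring, map_mul, pow_succ']
    exact mul_lt_mul_of_pos_left k3 (zero_lt_iff.2 (by simpa using p0))

theorem l_le {l : ℕ} (hl : l.Prime) (ho : ∀ m : ℤ, ¬ (l : ℤ) ∣ m → v m = 1) {D : ℤ} (h : D ≠ 0) :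
    ∃ M : ℕ, v l ^ M ≤ v D := by
  obtain ⟨M, m, hm, rfl⟩ := WfDvdMonoid.max_power_factor h (Nat.prime_iff_prime_int.1 hl).irreducible
  exact ⟨M, by rw [Int.cast_mul, map_mul, ho m hm, mul_one]; simp⟩

theorem nsm {Q : Pt A B} (h : KerV v Q) (n : ℕ) : KerV v (n • Q) ∧ v (zf (n • Q)) ≤ v (zf Q) ∧
    v (zf (n • Q) - n * zf Q) ≤ v (zf Q) ^ 3 := by
  induction n with
  | zero =>
    rw [zero_nsmul]
    exact ⟨trivial, (show v (zf (0 : Pt A B)) = 0 from v.map_zero).trans_le zero_le', by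
      rw [show zf (0 : Pt A B) = 0 from rfl]; simp⟩
  | succ n ih =>
    rw [succ_nsmul]
    have a := add_le ih.1 h ih.2.1 le_rfl
    refine ⟨kerV_add cf ih.1 h, a.1, ?_⟩
    rw [show zf (n • Q + Q) - (n + 1 : ℕ) * zf Q = zf (n • Q + Q) - (zf (n • Q) + zf Q) +
      (zf (n • Q) - n * zf Q) by push_cast; ring]
    exact v.map_add_le a.2 ih.2.2

/-- no torsion in the deep formal group -/
theorem tf {Q : Pt A B} (h : KerV v Q) {n : ℕ} (hn : v (zf Q) ≤ v n) (e : n • Q = 0) : Q = 0 := by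
  refine (ker h).2.2.2 (by_contra fun z => ?_)
  have p : 0 < v (zf Q) := zero_lt_iff.2 ((map_ne_zero v).2 z)
  have a := (nsm h n).2.2
  rw [e, show zf (0 : Pt A B) = 0 from rfl, zero_sub, Valuation.map_neg, map_mul, pow_succ] at a
  have a' := (le_of_mul_le_mul_right a p).trans (show _ ≤ v n * v (zf Q) by
    rw [sq]; exact mul_le_mul_left hn _)
  exact a'.not_gt (mul_lt_of_lt_one_right (p.trans_le hn) (ker h).1)

end val

variable [Pp] {A B : ℤ} (hD : 4 * (A : ℚ) ^ 3 + 27 * (B : ℚ) ^ 2 ≠ 0) {l : ℕ} {P : Ideal (𝓞 Qb)}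
  {φ : GQ}

theorem zero_of {G : Type} [AddCommGroup G] {Q : G} {c n : ℕ} (h : pp ^ (c + 1) • Q = Q)
    (hn : pp ^ n • Q = 0) : Q = 0 := by
  have : ∀ k : ℕ, (pp ^ (c + 1)) ^ k • Q = Q := fun k => by
    induction k with
    | zero => simp
    | succ k ih => rw [pow_succ, mul_smul, h, ih]
  rw [← this n, ← pow_mul, add_mul, pow_add, one_mul, mul_smul, hn, smul_zero]

include hD

/-- no element of the Tate module is fixed by Frobenius and inertia -/
theorem no_fix (o : Ov l P) (f : Fb l P φ) {x : Tm (A : ℚ) (B : ℚ)} (hφ : rho _ _ φ x = x)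
    (hI : ∀ g, Inert P g → rho _ _ g x = x) : x = 0 := by
  obtain ⟨hl, hP, h2⟩ := o
  by_contra h0
  obtain ⟨n, hn⟩ : ∃ n, TM.cp n x ≠ 0 := by
    by_contra! hc
    exact h0 (TM.ext fun r => by rw [hc, map_zero])
  obtain ⟨O, hO⟩ := ex_O hP (ne_bot hl.ne_zero h2)
  have l0 : (l : Qb) ≠ 0 := Nat.cast_ne_zero.2 hl.ne_zero
  have ho : ∀ m : ℤ, ¬ (l : ℤ) ∣ m → O.valuation m = 1 := fun m hm => le_antisymm (vi m) (not_lt.1
    fun k => hm ((int_mem hP hl h2 m).1 ((hO.mem hP m).1 k)))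
  have lp : O.valuation l ≤ O.valuation (pp : ℕ) := by
    by_cases e : l = pp
    · rw [e]
    · refine (vn l).trans (Eq.ge ?_)
      simpa using ho pp fun d => e ((Nat.prime_dvd_prime_iff_eq hl pp_prime).1 (Int.natCast_dvd_natCast.1 d))
  have tz : ∀ (k : ℕ) (y : Pt A B), Ur P y → KerV O.valuation y → pp ^ k • y = 0 → y = 0 := by
    intro k y u a
    induction k with
    | zero => exact fun e => by simpa using e
    | succ k ih =>
      refine fun e => ih (tf (nsm a _).1 (n := pp) (le_trans (nsm a _).2.1 (le_trans ?_ lp))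
        (by rwa [← mul_smul, ← pow_succ']))
      exact ((hO.fk hl.ne_zero y).1 ⟨(hO.k1 _).2 a, unv l P hl hP h2 _
        (fun g hg => by rw [← zf_ga, u g hg]) ((hO.zp _).2 (ker a).1)⟩).2
  let R : Set Qb := {a | (∀ g : GQ, (∀ x : 𝓞 Qb, g • x - x ∈ P) → g a = a) ∧ φ a = a ∧
    O.valuation a ≤ 1}
  have hD' : 4 * A ^ 3 + 27 * B ^ 2 ≠ 0 := by exact_mod_cast hD
  obtain ⟨M, hM⟩ := l_le hl ho (D := 2 * (4 * A ^ 3 + 27 * B ^ 2)) (mul_ne_zero two_ne_zero hD')
  rw [Int.cast_mul, Int.cast_ofNat] at hM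
  obtain ⟨T, fT, hT⟩ := cls (v := O.valuation) (R := R) hl.one_lt l0
    (fun a ha => by
      rw [Valuation.map_sub_swap, ← hO.zp]
      simpa only [ha.2.1] using frob hP f ((hO.ip a).2 ha.2.2))
    (fun a ha b hb h => ⟨fun g hg => by rw [map_div₀, map_sub, ha.1 g hg, hb.1 g hg, map_natCast],
      by rw [map_div₀, map_sub, ha.2.1, hb.2.1, map_natCast], (hO.ip _).1 (unv l P hl hP
        h2 _ (fun g hg => by rw [map_sub, ha.1 g hg, hb.1 g hg]) ((hO.zp _).2 h))⟩) M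
  choose! c hc using hT
  have q0 : ∀ i, TM.cp (n + i) x ≠ 0 := fun i k => hn (by rw [← TM.cp_add x n i, k, nsmul_zero])
  have ur : ∀ i, Ur P (TM.cp i x : Pt A B) := fun i g hg => by rw [← cp_rho, hI g hg]
  have fx : ∀ {g : GQ} {x y h}, ga g (.some x y h : Pt A B) = .some x y h → g x = x ∧ g y = y :=
    fun e => by rw [P004M.TE.ga_some] at e; simpa using e
  have ex : ∀ i, ∃ s t h, TM.cp (n + i) x = (.some s t h : Pt A B) ∧ s ∈ R ∧ t ∈ R := fun i => by
    have a := q0 i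
    have b := ur (n + i)
    have d : ga φ (TM.cp (n + i) x : Pt A B) = TM.cp (n + i) x := by rw [← cp_rho, hφ]
    have k := tz (n + i) _ b
    have k' := TM.pow_smul_cp x (n + i)
    generalize (TM.cp (n + i) x : Pt A B) = y at a b d k k'
    rcases y with _ | ⟨s, t, h⟩
    · exact absurd rfl a
    have i1 : O.valuation s ≤ 1 := by_contra fun m => a (k m k')
    exact ⟨s, t, h, rfl, ⟨fun g hg => (fx (b g hg)).1, (fx d).1, i1⟩,
      fun g hg => (fx (b g hg)).2, (fx d).2, y_int cf h.1 i1⟩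
  choose s t h e hs ht using ex
  obtain ⟨i, j, ij, k⟩ := (fT.prod fT).exists_lt_map_eq_of_forall_mem
    (f := fun i => (c (s i), c (t i))) fun i => Set.mk_mem_prod (hc _ (hs i)).1 (hc _ (ht i)).1
  have z : ∀ {s t}, s ∈ R → t ∈ R → c s = c t → O.valuation (s - t) < O.valuation l ^ M :=
    fun {s t} hs ht e => by
      rw [← sub_sub_sub_cancel_right s t (c t)]
      exact O.valuation.map_sub_lt (e ▸ (hc s hs).2) (hc t ht).2
  have nr := near (h i) (h j) (hs i).2.2 (hs j).2.2 rfl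
    ((z (hs i) (hs j) (congrArg Prod.fst k)).trans_le hM)
    ((z (ht i) (ht j) (congrArg Prod.snd k)).trans_le hM)
  rw [← e, ← e] at nr
  obtain ⟨d, rfl⟩ := Nat.exists_eq_add_of_lt ij
  have e1 : pp ^ (d + 1) • TM.cp (n + (i + d + 1)) x = TM.cp (n + i) x := by
    rw [← TM.cp_add x (n + i) (d + 1), show n + (i + d + 1) = n + i + (d + 1) by omega]
  have t2 := TM.pow_smul_cp x (n + (i + d + 1))
  refine q0 _ (zero_of (e1.trans (sub_eq_zero.1 (tz (n + (i + d + 1)) _ (fun g hg => ?_) nr ?_))) t2)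
  · rw [map_sub, ur _ g hg, ur _ g hg]
  · rw [nsmul_sub, ← e1, smul_comm, t2, nsmul_zero, sub_zero]

/-- **a vector fixed by Frobenius and inertia is zero** -/
theorem fix0 (o : Ov l P) (f : Fb l P φ) {v : Fin 2 → ℤ_[pp]} (hφ : mt hD φ *ᵥ v = v)
    (hI : ∀ g, Inert P g → mt hD g *ᵥ v = v) : v = 0 := by
  have e0 : ⇑((bs hD).repr ((bs hD).equivFun.symm v)) = v := by
    rw [← Module.Basis.equivFun_apply, LinearEquiv.apply_symm_apply]
  have key : ∀ g, mt hD g *ᵥ v = v →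
      rho _ _ g ((bs hD).equivFun.symm v) = (bs hD).equivFun.symm v := fun g e => by
    apply (bs hD).repr.injective
    apply DFunLike.coe_injective
    have e1 := LinearMap.toMatrix_mulVec_repr (bs hD) (bs hD) (rho _ _ g) ((bs hD).equivFun.symm v)
    rw [e0] at e1
    change ⇑((bs hD).repr _) = ⇑((bs hD).repr _)
    rw [← e1, e0]
    exact e
  exact (bs hD).equivFun.symm.map_eq_zero_iff.1 (no_fix hD o f (key φ hφ) fun g i => key g (hI g i))

/-- **no local invariants** -/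
theorem noi (o : Ov l P) (v : Fin 2 → ℤ_[pp]) (h : ∀ g ∈ dec P, mt hD g *ᵥ v = v) : v = 0 := by
  obtain ⟨φ, f⟩ := exists_phi o.1 o.2.1 o.2.2
  exact fix0 hD o f (h φ (phi_mem o.1 o.2.1 f)) fun g i => h g (inP_le_dec i)

theorem det_inert (o : Ov l P) (h : l ≠ pp) {g : GQ} (i : Inert P g) : (mt hD g).det = 1 :=
  (det_cyc hD g).trans (Pg.cz_inert o h i)

theorem det_fb (o : Ov l P) (h : l ≠ pp) (f : Fb l P φ) : (mt hD φ).det = l :=
  (det_cyc hD φ).trans (Pg.cz_fb o h f)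

/-- inertia at the prime does not act trivially -/
theorem ex_in (o : Ov pp P) : ∃ g, Inert P g ∧ mt hD g ≠ 1 := by
  obtain ⟨g, i, h⟩ := Pg.ex_in o
  refine ⟨g, i, fun e => one_ne_zero (h (a₁ := 1) (a₂ := 0) ?_)⟩
  have := (det_cyc hD g).symm.trans ((congrArg det e).trans det_one)
  exact (pow_one _).trans (this.trans (pow_zero _).symm)

end Vale.Agent.P014Y.F.En
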