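import Vale.Agent.P014Y.F.En.Vie
import Vale.Agent.P014Y.F.En.Noi

/-! # P014Y, row NSC: a minimal model with bad reduction has ramified torsion of order `3 ^ n` -/

set_option linter.all false

open scoped Classical

noncomputable section

namespace Vale.Agent.P014Y.F.En

open NumberField WeierstrassCurve.Affine Finset
open Vale.Agent.P022 (Qb GQ)
open Vale.Agent.P004H.H666 (xp zp eqn nsg xp_some zp_some xp_zero zp_zero rl_point)
open Vale.Agent.P004M.TE hiding Qb GQ

variable {A B : ℤ} (hD : 4 * (A : ℚ) ^ 3 + 27 * (B : ℚ) ^ 2 ≠ 0)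

/-- the coordinates of a point of order a power of three -/
def To (A B : ℤ) (x y : Qb) : Prop :=
  ∃ (h : (Cv Qb (A : ℚ) (B : ℚ)).Nonsingular x y) (n : ℕ), 3 ^ n • (Point.some x y h : Pt A B) = 0

/-- the third division polynomial -/
def ps (A B x : Qb) : Qb := 3 * x ^ 4 + 6 * A * x ^ 2 + 12 * B * x - A ^ 2

/-- the numerator of the tripling formula -/
def ph (A B x : Qb) : Qb := x ^ 9 - 12 * A * x ^ 7 - 96 * B * x ^ 6 + 30 * A ^ 2 * x ^ 5 -
  24 * A * B * x ^ 4 + (36 * A ^ 3 + 48 * B ^ 2) * x ^ 3 + 48 * A ^ 2 * B * x ^ 2 +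
  (9 * A ^ 4 + 96 * A * B ^ 2) * x + (8 * A ^ 3 * B + 64 * B ^ 3)

theorem tri {x y : Qb} (h : (Cv Qb (A : ℚ) (B : ℚ)).Nonsingular x y) : ∃ κ : Qb,
    xp (3 • Point.some x y h) = κ * ph A B x ∧ zp (3 • Point.some x y h) = κ * ps A B x ^ 2 := by
  obtain ⟨μ, -, e1, e2⟩ := dbl two_ne_zero h
  obtain ⟨ν, -, -, a, b⟩ := rl_point two_ne_zero (2 • Point.some x y h) (Point.some x y h)
  rw [← succ_nsmul, show 2 • Point.some x y h - Point.some x y h = Point.some x y h by
    rw [two_nsmul, add_sub_cancel_right], e1, e2, eqn h] at a b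
  simp only [xp_some, zp_some, map_intCast] at a b
  refine ⟨ν * μ ^ 2, ?_, ?_⟩ <;> simp only [ph, ps]
  · linear_combination a - x * b
  · linear_combination b

include hD

theorem To.three {x : Qb} (e : ps A B x = 0) : ∃ y, To A B x y := by
  obtain ⟨y, h⟩ := exists_pt (L := Qb) two_ne_zero hD x
  obtain ⟨κ, -, b⟩ := tri h
  exact ⟨y, h, 1, eq_zero_of_zp (by rw [pow_one, b, e]; ring)⟩

theorem To.third {x₀ y₀ x : Qb} (k : To A B x₀ y₀) (e : ph A B x = x₀ * ps A B x ^ 2) :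
    ∃ y, To A B x y := by
  obtain ⟨y, h⟩ := exists_pt (L := Qb) two_ne_zero hD x
  obtain ⟨h0, n, hn⟩ := k
  obtain ⟨κ, a, b⟩ := tri h
  refine ⟨y, h, n + 1, ?_⟩
  rw [pow_succ, mul_smul]
  generalize 3 • Point.some _ _ h = R at a b
  rcases R with _ | ⟨x', y', h'⟩
  · exact nsmul_zero _
  rw [xp_some] at a
  rw [zp_some] at b
  rcases xp_eq (P := .some x' y' h') (Q := .some _ _ h0) (Point.some_ne_zero _) (Point.some_ne_zero _)
    (by rw [xp_some, xp_some, a, e]; linear_combination -x₀ * b) with e | e <;> rw [e]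
  · exact hn
  · rw [neg_nsmul, hn, neg_zero]

/-- **bad minimal models are ramified**; `U` is a subfield which contains the coordinates -/
theorem nos {Γ : Type} [LinearOrderedCommGroupWithZero Γ] (v : Valuation Qb Γ) (U : Subfield Qb)
    {p : ℕ} (hp : p.Prime) (h5 : 5 ≤ p) (iz : ∀ n : ℤ, v n ≤ 1) (lt : ∀ n : ℤ, v n < 1 ↔ (p : ℤ) ∣ n)
    (un : ∀ a ∈ U, v a < 1 → v a ≤ v p) (hU : ∀ x y, To A B x y → x ∈ U ∧ y ∈ U)
    (bad : (p : ℤ) ∣ 4 * A ^ 3 + 27 * B ^ 2) : (p : ℤ) ^ 4 ∣ A ∧ (p : ℤ) ^ 6 ∣ B := by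
  have p0 : v p ≠ 0 := v.ne_zero_iff.2 (by exact_mod_cast hp.ne_zero)
  have p1 : v p < 1 := by simpa using (lt p).2 dvd_rfl
  have dv : ∀ (n : ℕ) (D : ℤ), v D ≤ v p ^ n → (p : ℤ) ^ n ∣ D := fun n => by
    induction n with
    | zero => simp
    | succ n ih =>
      intro D h
      obtain ⟨D, rfl⟩ := ih D (h.trans (pow_le_pow_right_of_le_one' p1.le n.le_succ))
      rw [Int.cast_mul, map_mul, Int.cast_pow, map_pow, Int.cast_natCast, pow_succ,
        mul_le_mul_iff_right₀ (zero_lt_iff.2 (pow_ne_zero _ p0))] at h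
      exact pow_succ (p : ℤ) n ▸ mul_dvd_mul_left _ ((lt D).1 (h.trans_lt p1))
  have un1 : ∀ n : ℕ, n ≠ 0 → n < 5 → v n = 1 := fun n a b => le_antisymm (by simpa using iz n)
    (not_lt.1 fun k => absurd (Nat.le_of_dvd (Nat.pos_of_ne_zero a) (Int.natCast_dvd_natCast.1
      ((lt n).1 (by simpa using k)))) (by omega))
  have v2 : v 2 = 1 := by simpa using un1 2 two_ne_zero (by norm_num)
  have v3 : v 3 = 1 := by simpa using un1 3 (by norm_num) (by norm_num)
  have w : ∀ (i j : ℕ) (x : Qb), v (2 ^ i * 3 ^ j * x) = v x := fun i j x => by simp [v2, v3]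
  have vD := (lt _).2 bad
  have mA : (A : Qb) ∈ U := intCast_mem U A
  have m2 : (2 : Qb) ∈ U := by simpa using natCast_mem U 2
  have m3 : (3 : Qb) ∈ U := by simpa using natCast_mem U 3
  push_cast at vD
  by_cases hA : v A < 1
  · have a3 : ∀ n, v ((A : Qb) ^ (n + 1)) < 1 := fun n => by
      rw [map_pow]; exact pow_lt_one₀ zero_le' hA n.succ_ne_zero
    have hB : v B < 1 := by
      have := v.map_sub_lt vD ((w 2 0 _).trans_lt (a3 2))
      rw [show _ - _ = 2 ^ 0 * 3 ^ 3 * (B : Qb) ^ 2 by ring, w, map_pow] at this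
      exact (pow_lt_one_iff two_ne_zero).1 this
    obtain ⟨r, e, k⟩ := big v 3 fun i => [-(A : Qb) ^ 2 / 3, 2 ^ 2 * 3 ^ 0 * (B : Qb),
      2 ^ 1 * 3 ^ 0 * (A : Qb), 0].getD i 0
    have r1 := e.lt v fun i hi => by
      interval_cases i
      · simpa [v3] using a3 1
      · exact (w _ _ _).trans_lt hB
      · exact (w _ _ _).trans_lt hA
      · simp
    have e' : ps A B r = 0 := by
      simp only [Rz, sum_range_succ, range_zero, sum_empty, List.getD_cons_zero,
        List.getD_cons_succ] at e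
      rw [ps]; linear_combination 3 * e
    obtain ⟨y, t⟩ := To.three hD e'
    obtain ⟨mx, my⟩ := hU _ _ t
    have q := eqn t.1
    have n := nsg t.1
    simp only [map_intCast] at q n
    have q1 : (3 * r ^ 2 + A) ^ 2 = 3 * r * (2 * y) ^ 2 := by
      rw [ps] at e'; linear_combination -e' - 12 * r * q
    have y0 : 2 * y ≠ 0 := fun z => n.elim (fun c => c (pow_eq_zero_iff two_ne_zero |>.1
      (by rw [q1, z]; ring))) fun c => c z
    have q2 : v ((3 * r ^ 2 + A) / (2 * y)) ^ 2 = v r := by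
      rw [← map_pow, div_pow, q1, mul_div_cancel_right₀ _ (pow_ne_zero 2 y0), map_mul, v3, one_mul]
    have q3 : v r ≤ v p ^ 2 := q2 ▸ pow_le_pow_left' (un _ (U.div_mem (U.add_mem (U.mul_mem m3
      (U.pow_mem mx 2)) mA) (U.mul_mem m2 my)) ((pow_lt_one_iff two_ne_zero).1 (q2 ▸ r1))) 2
    exact ⟨dv 4 A ((w _ _ _).symm.trans_le ((k 2 2 rfl two_pos).trans
        ((pow_le_pow_left' q3 2).trans_eq (pow_mul _ 2 2).symm))),
      dv 6 B ((w _ _ _).symm.trans_le ((k 1 3 rfl three_pos).trans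
        ((pow_le_pow_left' q3 3).trans_eq (pow_mul _ 2 3).symm)))⟩
  exfalso
  replace hA : v A = 1 := le_antisymm (iz A) (not_lt.1 hA)
  have A0 : (A : Qb) ≠ 0 := v.ne_zero_iff.1 (hA ▸ one_ne_zero)
  obtain ⟨t, eB⟩ : ∃ t : Qb, B = -2 * A * t := ⟨-B / (2 * A), by field_simp⟩
  have mt : t ∈ U := by
    have := U.div_mem (U.neg_mem (intCast_mem U B)) (U.mul_mem m2 mA)
    rwa [eB, show -(-2 * A * t) = 2 * A * t by ring,
      mul_div_cancel_left₀ _ (mul_ne_zero two_ne_zero A0)] at this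
  obtain ⟨a, eA⟩ : ∃ a : Qb, A = a - 27 * t ^ 2 := ⟨A + 27 * t ^ 2, by ring⟩
  have va : v a = v (4 * (A : Qb) ^ 3 + 27 * B ^ 2) := by
    rw [show 4 * (A : Qb) ^ 3 + 27 * B ^ 2 = 2 ^ 2 * 3 ^ 0 * (A ^ 2 * a) by
      rw [eB]; linear_combination 4 * A ^ 2 * eA, w, map_mul, map_pow, hA, one_pow, one_mul]
  rw [← va] at vD
  have vt : v t = 1 := (pow_eq_one_iff_left two_ne_zero).1 (by
    rw [← map_pow, ← w 0 3, show _ * t ^ 2 = a - A by linear_combination eA,
      v.map_sub_eq_of_lt_right (hA ▸ vD), hA])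
  have a0 : 0 < v a := by
    rw [va, zero_lt_iff, v.ne_zero_iff]; exact_mod_cast hD
  let ι := v.integer.subtype
  have sm : ∀ {x : Qb} (z : v.integer), v x < 1 → v (x * ι z) < 1 := fun z h => by
    rw [map_mul]; exact mul_lt_one_of_lt_of_le h z.2
  let t' : v.integer := ⟨t, vt.le⟩
  let a' : v.integer := ⟨a, vD.le⟩
  have it : ι t' = t := rfl
  have ia : ι a' = a := rfl
  have key : ∀ k : ℕ, ∃ X y, To A B (X + 3 * t) y ∧ v X < 1 ∧ v a < v X ^ 3 ^ k := fun k => by
    induction k with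
    | zero =>
      have c0 : v (12 * t ^ 2 - a / 3) = 1 := by
        rw [v.map_sub_eq_of_lt_left, show 12 * t ^ 2 = 2 ^ 2 * 3 ^ 1 * t ^ 2 by ring, w, map_pow, vt,
          one_pow]
        rw [show 12 * t ^ 2 = 2 ^ 2 * 3 ^ 1 * t ^ 2 by ring, w, map_pow, vt, one_pow, map_div₀, v3,
          div_one]
        exact vD
      obtain ⟨r, e, r1⟩ := sml v 3 (fun i => [a * (12 * t ^ 2 - a / 3), 4 * t * a, 2 * a,
        12 * t].getD i 0) (by rwa [List.getD_cons_zero, map_mul, c0, mul_one])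
      simp only [Rz, sum_range_succ, range_zero, sum_empty, List.getD_cons_zero,
        List.getD_cons_succ] at e
      obtain ⟨y, h⟩ := To.three hD (x := r + 3 * t) (by rw [ps, eB, eA]; linear_combination 3 * e)
      refine ⟨r, y, h, r1, ?_⟩
      rw [pow_zero, pow_one]
      by_contra! c
      obtain ⟨s, rfl⟩ : ∃ s : v.integer, r = a * ι s := ⟨⟨r / a, by
        rw [Valuation.mem_integer_iff, map_div₀, div_le_one₀ a0]; exact c⟩, by
          exact (mul_div_cancel₀ _ (v.ne_zero_iff.1 a0.ne')).symm⟩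
      have := sm (-(s * (4 * t' + s * (2 * a' + s * (12 * t' * a' + s * a' ^ 2))))) vD
      rw [← c0] at this
      refine this.ne (congrArg v (mul_left_cancel₀ (v.ne_zero_iff.1 a0.ne') ?_))
      simp only [map_add, map_mul, map_neg, map_pow, map_ofNat, it, ia]
      linear_combination -e
    | succ k ih =>
      obtain ⟨X, y, h, X1, e⟩ := ih
      have aX : v a < v X := e.trans_le (pow_le_of_le_one zero_le' X1.le (by positivity))
      let x : v.integer := ⟨X, X1.le⟩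
      have ix : ι x = X := rfl
      let α : ℕ → v.integer := fun i => [0, 0, 0, 0, 0, 0, -1296 * t' ^ 2, -216 * t', -9].getD i 0
      let β : ℕ → v.integer := fun i => [-a' ^ 3 * x + 8 * t' * a' ^ 3 + 72 * t' ^ 2 * a' ^ 2 * x -
        224 * t' ^ 3 * a' ^ 2 - 1296 * t' ^ 4 * a' * x, 9 * a' ^ 3 + 24 * t' * a' ^ 2 * x -
        120 * t' ^ 2 * a' ^ 2 - 864 * t' ^ 3 * a' * x - 3888 * t' ^ 4 * a', 12 * a' ^ 2 * x +
        264 * t' * a' ^ 2 - 576 * t' ^ 2 * a' * x - 7776 * t' ^ 3 * a', 36 * a' ^ 2 -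
        72 * t' * a' * x + 336 * t' ^ 2 * a' - 2592 * t' ^ 3 * x - 46656 * t' ^ 4, -30 * a' * x +
        408 * t' * a' - 1080 * t' ^ 2 * x - 15552 * t' ^ 3, 30 * a' - 504 * t' * x - 1944 * t' ^ 2,
        -36 * x - 168 * t', -12, 0].getD i 0
      obtain ⟨r, f, m⟩ := big v 8 fun i => X * ι (α i) + a * ι (β i)
      have r1 := f.lt v fun i _ => v.map_add_lt (sm _ X1) (sm _ vD)
      have c6 : v (X * ι (α 6)) = v X := by
        rw [show X * ι (α 6) = -(2 ^ 4 * 3 ^ 4 * (X * t ^ 2)) by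
          simp only [α, List.getD_cons_zero, List.getD_cons_succ, map_mul, map_neg, map_pow,
            map_ofNat, it]
          ring,
          v.map_neg, w, map_mul, map_pow, vt, one_pow, mul_one]
      have m6 := m 6 3 rfl three_pos
      rw [v.map_add_eq_of_lt_left (by
        rw [c6, map_mul]; exact (mul_le_of_le_one_right' (β 6).2).trans_lt aX), c6] at m6
      simp only [Rz, sum_range_succ, range_zero, sum_empty, α, β, List.getD_cons_zero,
        List.getD_cons_succ, map_add, map_sub, map_mul, map_neg, map_pow, map_ofNat, map_zero, it,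
        ia, ix] at f
      obtain ⟨y', h'⟩ := h.third hD (x := r + 3 * t) (by
        rw [ph, ps, eB, eA]; linear_combination f)
      exact ⟨r, y', h', r1, e.trans_le (by
        rw [pow_succ', pow_mul]; exact pow_le_pow_left' m6 _)⟩
  have D0 : (4 * A ^ 3 + 27 * B ^ 2 : ℤ) ≠ 0 := by exact_mod_cast hD
  obtain ⟨k, hk⟩ := pow_unbounded_of_one_lt (4 * A ^ 3 + 27 * B ^ 2).natAbs hp.one_lt
  obtain ⟨X, y, h, X1, e⟩ := key k
  have l := un _ (by simpa using U.sub_mem (hU _ _ h).1 (U.mul_mem m3 mt)) X1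
  have := dv (3 ^ k) (4 * A ^ 3 + 27 * B ^ 2) (by
    push_cast; rw [← va]; exact e.le.trans (pow_le_pow_left' l _))
  have := Nat.le_of_dvd (Int.natAbs_pos.2 D0) (Int.natCast_dvd.1 (by exact_mod_cast this))
  exact absurd (hk.trans_le (Nat.pow_le_pow_right hp.pos
    (Nat.lt_pow_self (by norm_num)).le)) (not_lt.2 this)

end Vale.Agent.P014Y.F.En
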