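import Vale.Agent.P014Y.F.St
import Vale.Agent.P014Y.F.En.Tri
import Vale.Agent.P014U.X4F.En.Rep
import Vale.Agent.P014T.Ht.Vc

/-! # P014Y, block F: the rows `UNI` and `NSC` -/

set_option linter.all false

open NumberField Matrix WeierstrassCurve.Affine
open scoped Classical

noncomputable section

namespace Vale.Agent.P014Y.F.En

open Vale.Agent.P022 P004F.Qx P004F.Qx.Fg P014U P027M.K
open P004M.TE (Pt ga Cv ga_some)
open Vale.Agent.P022.H443 (inP)
open Vale.Agent.P027M.S (Inert)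
open Vale.Agent.P022E.GW (Ov Fb)
open P014U.X4M.TE (mt rho Tm bs cp_rho mt_eq scal frob_mt hg_of)
open P014T.Vc (vm vm_inj vm_some)

theorem nil {R : Type} [CommRing R] [IsDomain R] {v : Fin 2 → R} (v0 : v ≠ 0) {M N : M2 R}
    (d : M.det = 1) (h : M *ᵥ v = v) (k : N *ᵥ v = v) : (N - 1) * (M - 1) = 0 := by
  have z : ∀ x : R, v 0 * x = 0 → v 1 * x = 0 → x = 0 := fun x a b => by_contra fun c =>
    v0 (funext (Fin.forall_fin_two.2
      ⟨(mul_eq_zero.1 a).resolve_right c, (mul_eq_zero.1 b).resolve_right c⟩))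
  have a := congrFun h 0
  have b := congrFun h 1
  have a' := congrFun k 0
  have b' := congrFun k 1
  simp only [mulVec, dotProduct, Fin.sum_univ_two] at a b a' b'
  rw [det_fin_two] at d
  obtain t : M 1 1 = 2 - M 0 0 := sub_eq_zero.1 (z _
    (by linear_combination v 0 * d - (M 1 1 - 1) * a + M 0 1 * b)
    (by linear_combination v 1 * d + M 1 0 * a - (M 0 0 - 1) * b))
  rw [t] at b
  refine Matrix.ext (Fin.forall_fin_two.2 ⟨Fin.forall_fin_two.2 ⟨?_, ?_⟩,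
    Fin.forall_fin_two.2 ⟨?_, ?_⟩⟩) <;>
  simp only [mul_apply, Fin.sum_univ_two, Matrix.sub_apply, one_apply_eq, Matrix.zero_apply, t,
    one_apply_ne (zero_ne_one : (0 : Fin 2) ≠ 1), one_apply_ne (one_ne_zero : (1 : Fin 2) ≠ 0)] <;>
  refine z _ ?_ ?_
  · linear_combination (M 0 0 - 1) * a' + N 0 1 * b
  · linear_combination M 1 0 * a' - (N 0 0 - 1) * b
  · linear_combination M 0 1 * a' - N 0 1 * a
  · linear_combination (1 - M 0 0) * a' + (N 0 0 - 1) * a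
  · linear_combination (M 0 0 - 1) * b' + (N 1 1 - 1) * b
  · linear_combination M 1 0 * b' - N 1 0 * b
  · linear_combination M 0 1 * b' - (N 1 1 - 1) * a
  · linear_combination (1 - M 0 0) * b' + N 1 0 * a

variable [Pp] {A B : ℤ} (hD : 4 * (A : ℚ) ^ 3 + 27 * (B : ℚ) ^ 2 ≠ 0) {p : ℕ} {P : Ideal (𝓞 Qb)}
  {φ τ g : GQ}

/-- inertia with a fixed vector is unipotent, and is controlled by the tame generator -/
theorem uni (o : Ov p P) (hp : p ≠ pp) {v : Fin 2 → ℤ_[pp]} (v0 : v ≠ 0)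
    (hv : ∀ g, Inert P g → mt hD g *ᵥ v = v) (hτ : Gn p P τ) (hg : Inert P g) :
    (mt hD g - 1) ^ 2 = 0 ∧ (mt hD τ = 1 → mt hD g = 1) := by
  have a : ∀ g j, Inert P g → Inert P j → (mt hD g - 1) * (mt hD j - 1) = 0 := fun g j hg hj =>
    nil v0 (det_inert hD o hp hj) (hv j hj) (hv g hg)
  refine ⟨(sq _).trans (a g g hg hg), fun t => sub_eq_zero.1 (Matrix.ext fun i j =>
    PadicInt.ext_of_toZModPow.1 fun k => ?_)⟩
  obtain ⟨S, h, -⟩ := X4F.En.ex_rep hD
  obtain ⟨n, hn⟩ := X4F.Lt.lt1 o k hp hτ hg (h.Kn_open k)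
  rw [hn _ (fun g => PadicInt.toZModPow k ((mt hD g - 1) i j)) (fun x => by
    rw [nsmul_eq_mul, ZMod.natCast_self, zero_mul]) (fun g _ m => ?_) fun g j hg hj => ?_, t]
  · simp
  · rw [← RingHom.mem_ker, PadicInt.ker_toZModPow, ← PadicInt.norm_le_pow_iff_mem_span_pow,
      _root_.zpow_neg, zpow_natCast, ← inv_pow, ← one_div]
    refine le_of_eq_of_le (congrArg (norm : ℚ_[pp] → ℝ) ?_) (m i j)
    simp only [Matrix.sub_apply, X4F.En.mt_rep, one_apply]
    split_ifs <;> rfl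
  · rw [← map_add, ← Matrix.add_apply, map_mul, show mt hD g * mt hD j - 1 =
      mt hD g - 1 + (mt hD j - 1) by linear_combination (norm := noncomm_ring) a g j hg hj]

theorem uni_row : UNI := fun e p hp g hg => by
  obtain ⟨h1, h2, v, v0, hv⟩ := Finset.mem_filter.1 hp
  have m := List.mem_toFinset.1 h1
  exact uni _ (e.ov p m) h2 v0 hv (e.gn p m h2) hg

include hD

/-- unramified and bad: the model is not minimal -/
theorem not_min (h3 : pp = 3) (o : Ov p P) (h5 : 5 ≤ p)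
    (ur : ∀ i, Inert P i → ∀ (n : ℕ) (y : Pt A B), pp ^ n • y = 0 → ga i y = y)
    (bad : (p : ℤ) ∣ 4 * A ^ 3 + 27 * B ^ 2) : (p : ℤ) ^ 4 ∣ A ∧ (p : ℤ) ^ 6 ∣ B := by
  obtain ⟨O, hO⟩ := ex_O o.2.1 (ne_bot o.1.ne_zero o.2.2)
  have p0 : (p : Qb) ≠ 0 := by exact_mod_cast o.1.ne_zero
  refine nos hD O.valuation (IntermediateField.fixedField (inP P)).toSubfield o.1 h5
    (fun n => vi n) (fun n => (hO.mem o.2.1 n).trans (int_mem o.2.1 o.1 o.2.2 n))
    (fun a ha k => ?_) ?_ bad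
  · have := (hO.ip _).1 (unv p P o.1 o.2.1 o.2.2 a (fun g hg => ha ⟨g, hg⟩) ((hO.zp _).2 k))
    rwa [map_div₀, div_le_one₀ (zero_lt_iff.2 (O.valuation.ne_zero_iff.2 p0))] at this
  · rintro x y ⟨h, n, hn⟩
    have := fun g : inP P => (ga_some g.1 h).symm.trans (ur g.1 g.2 n _ (h3 ▸ hn))
    simp only [Point.some.injEq] at this
    exact ⟨fun g => (this g).1, fun g => (this g).2⟩

theorem pts (h3 : pp = 3) (o : Ov p P) (h5 : 5 ≤ p) (f : Fb p P φ) {s : ℤ_[pp]}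
    (ur : ∀ i, Inert P i → ∀ (n : ℕ) (y : Pt A B), pp ^ n • y = 0 → ga i y = y)
    (sc : ∀ (n : ℕ) (y : Pt A B), pp ^ n • y = 0 → ga φ y = ap s n • y) : False := by
  induction' hn : (4 * A ^ 3 + 27 * B ^ 2).natAbs using Nat.strong_induction_on with n ih
    generalizing A B
  by_cases k : (p : ℤ) ∣ 4 * A ^ 3 + 27 * B ^ 2
  swap
  · haveI := Fact.mk o.1
    obtain ⟨h1, h2⟩ := frob_mt hD (hg_of o.1 (fun z => ((Nat.prime_iff_prime_int.1
      o.1).dvd_or_dvd z).elim (fun z => by have := Int.le_of_dvd two_pos z; omega) k)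
      (by omega)) ⟨P, o.2.1, o.2.2, f⟩
    have e : rho (A : ℚ) B φ = s • 1 := LinearMap.ext fun x => TM.ext fun r =>
      sc r _ (TM.pow_smul_cp x r)
    rw [mt_eq, e, map_smul, map_one] at h1 h2
    rw [trace_smul, trace_one, Fintype.card_fin, smul_eq_mul] at h1
    rw [det_smul, det_one, mul_one, Fintype.card_fin] at h2
    generalize P004M.TE.cs (A : ZMod p) (B : ZMod p) = t at h1
    have e1 : t ^ 2 = 4 * p := by
      have : (t : ℤ_[pp]) ^ 2 = 4 * p := by rw [← neg_sq, ← h1, ← h2]; push_cast; ring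
      exact_mod_cast this
    obtain ⟨u, rfl⟩ : 2 ∣ t := Int.prime_two.dvd_of_dvd_pow (n := 2) ⟨2 * p, by linarith⟩
    exact o.1.prime.not_isSquare ⟨u.natAbs, by
      rw [← Int.natAbs_mul, show u * u = p by linarith, Int.natAbs_natCast]⟩
  obtain ⟨⟨A, rfl⟩, ⟨B, rfl⟩⟩ := not_min hD h3 o h5 ur k
  have e : 4 * ((p : ℤ) ^ 4 * A) ^ 3 + 27 * (p ^ 6 * B) ^ 2 = p ^ 12 * (4 * A ^ 3 + 27 * B ^ 2) := by
    ring
  have h0 : (p : ℤ) ^ 12 * (4 * A ^ 3 + 27 * B ^ 2) ≠ 0 := e ▸ by exact_mod_cast hD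
  have c : P014T.Vc.Ch ((Cv Qb (A : ℚ) (B : ℚ)).map (RingHom.id Qb))
      (Cv Qb ((p ^ 4 * A : ℤ) : ℚ) ((p ^ 6 * B : ℤ) : ℚ)) p 0 0 0 :=
    ⟨Nat.cast_ne_zero.2 o.1.ne_zero, by simp, by simp, by simp, by simp, by simp⟩
  have q : ∀ (g : GQ) (y : Pt A B), vm _ c (ga g y) = ga g (vm _ c y) := by
    rintro g (_ | ⟨x, y, h⟩)
    · rfl
    · rw [ga_some, vm_some, vm_some, ga_some]; simp
  refine ih _ ?_ (by exact_mod_cast right_ne_zero_of_mul h0) (A := A) (B := B)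
    (fun i hi n y hy => vm_inj c ?_) (fun n y hy => vm_inj c ?_) rfl
  · rw [← hn, e, Int.natAbs_mul, Int.natAbs_pow, Int.natAbs_natCast]
    exact lt_mul_of_one_lt_left (Int.natAbs_pos.2 (right_ne_zero_of_mul h0))
      (Nat.one_lt_pow (by norm_num) o.1.one_lt)
  · rw [q, ur i hi n _ (by rw [← map_nsmul, hy, map_zero])]
  · rw [q, sc n _ (by rw [← map_nsmul, hy, map_zero]), map_nsmul]

/-- an unramified Frobenius element is not scalar -/
theorem nsc (h3 : pp = 3) (o : Ov p P) (hp : p ≠ pp) (f : Fb p P φ)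
    (ur : ∀ i, Inert P i → mt hD i = 1) (s : ℤ_[pp]) : mt hD φ ≠ s • 1 := fun e => by
  refine pts hD h3 o (by_contra fun k => ?_) f (fun i hi n y hy => ?_) fun n y => scal hD e
  · obtain rfl : p = 2 := by
      have := o.1.two_le
      have := o.1.eq_two_or_odd
      omega
    have d := congrArg PadicInt.toZMod (det_fb hD o hp f)
    rw [e, det_smul, det_one, mul_one, Fintype.card_fin, map_pow, map_natCast] at d
    exact (show ∀ n, n = 3 → ∀ x : ZMod n, x ^ 2 ≠ ((2 : ℕ) : ZMod n) by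
      rintro _ rfl; decide) _ h3 _ d
  · rw [scal hD ((ur i hi).trans (one_smul _ _).symm) hy, ap, map_one]
    rcases n with _ | n
    · rw [pow_zero, one_smul] at hy
      rw [hy, nsmul_zero]
    · haveI := Fact.mk (Nat.one_lt_pow n.succ_ne_zero one_lt)
      rw [ZMod.val_one, one_smul]

omit hD in
theorem nsc_row (h3 : pp = 3) : NSC := fun _ _ _ _ o h f ur => nsc _ h3 o h f ur

end Vale.Agent.P014Y.F.En
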