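import Vale.Agent.P014Y.F.St
import Vale.Agent.P014Y.F.En.Noi
import Vale.Agent.P014U.Gt.El

/-! # P014Y, block F: the row `NSC` at every odd prime -/

set_option linter.all false

open Matrix

namespace Vale.Agent.P014Y.F.En

open P014U

/-- an unramified Frobenius element is not scalar -/
theorem nsa [Pp] : NSC := fun e p P φ o h f ur s k => by
  rcases (Gt.elc' e.A e.B e.par.disc p o.1 h).2 with ⟨-, g⟩ | ⟨-, g⟩
  swap
  · obtain ⟨⟨g, i, n⟩, -⟩ := g P o
    exact n (ur g i)
  have h1 : (e.r φ).trace = _ := (g P o).2 φ f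
  have h2 : (e.r φ).det = p := det_fb _ o h f
  rw [k, trace_smul, trace_one, Fintype.card_fin, smul_eq_mul] at h1
  rw [k, det_smul, det_one, mul_one, Fintype.card_fin] at h2
  generalize P004M.TE.al e.A e.B p = t at h1
  have e1 : t ^ 2 = 4 * p := by
    have : (t : ℤ_[pp]) ^ 2 = 4 * p := by rw [← h1, ← h2]; push_cast; ring
    exact_mod_cast this
  obtain ⟨u, rfl⟩ : 2 ∣ t := Int.prime_two.dvd_of_dvd_pow (n := 2) ⟨2 * p, by linarith⟩
  exact o.1.prime.not_isSquare ⟨u.natAbs, by
    rw [← Int.natAbs_mul, show u * u = p by linarith, Int.natAbs_natCast]⟩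

end Vale.Agent.P014Y.F.En
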