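import Mathlib

/-! # P014Y, block F: valuations of the roots of a monic polynomial (Mathlib only) -/

set_option linter.all false

noncomputable section

namespace Vale.Agent.P014Y.F.En

open Polynomial Finset

variable {K Γ : Type} [Field K] [LinearOrderedCommGroupWithZero Γ] (v : Valuation K Γ)

/-- `r` is a root of the monic polynomial with lower coefficients `c` -/
def Rz (n : ℕ) (c : ℕ → K) (r : K) : Prop := r ^ n + ∑ i ∈ range n, c i * r ^ i = 0

theorem Rz.lt {n : ℕ} {c : ℕ → K} {r : K} (e : Rz n c r) (h : ∀ i < n, v (c i) < 1) : v r < 1 := by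
  by_contra! k
  have p : 0 < v r := zero_lt_one.trans_le k
  have := v.map_sum_lt (g := v r ^ n) (s := range n) (f := fun i => c i * r ^ i) (pow_pos p n).ne'
    fun i hi => by
      rw [map_mul, map_pow]
      exact (mul_lt_of_lt_one_left (pow_pos p i) (h i (mem_range.1 hi))).trans_le
        (pow_le_pow_right₀ k (mem_range.1 hi).le)
  rw [← neg_eq_of_add_eq_zero_right e, v.map_neg, map_pow] at this
  exact lt_irrefl _ this

variable [IsAlgClosed K]

theorem rts (n : ℕ) (c : ℕ → K) : ∃ s : Multiset K, s.card = n ∧ (∀ r ∈ s, Rz n c r) ∧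
    ∀ j k, j + k = n → 0 < k → v (c j) = v (s.esymm k) := by
  have d : degree (∑ i ∈ range n, C (c i) * X ^ i : K[X]) < n := by
    rw [sum_range]; exact degree_sum_fin_lt _
  have m := monic_X_pow_add d
  have e : natDegree (X ^ n + ∑ i ∈ range n, C (c i) * X ^ i : K[X]) = n := by
    rw [natDegree_add_eq_left_of_degree_lt (by rwa [degree_X_pow]), natDegree_X_pow]
  refine ⟨_, IsAlgClosed.card_roots_eq_natDegree.trans e, fun r hr => ?_, fun j k a b => ?_⟩
  · simpa [Rz, eval_finset_sum] using (mem_roots m.ne_zero).1 hr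
  · have := coeff_eq_esymm_roots_of_card IsAlgClosed.card_roots_eq_natDegree (k := j)
      (by rw [e]; omega)
    rw [m.leadingCoeff, e, show n - j = k by omega, coeff_add, coeff_X_pow, if_neg (by omega),
      finset_sum_coeff] at this
    simp only [coeff_C_mul_X_pow, sum_ite_eq, mem_range, show j < n by omega, if_true,
      zero_add] at this
    rw [this]; simp

/-- a root of the largest size bounds the coefficients -/
theorem big (n : ℕ) (c : ℕ → K) : ∃ r, Rz (n + 1) c r ∧
    ∀ j k, j + k = n + 1 → 0 < k → v (c j) ≤ v r ^ k := by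
  classical
  obtain ⟨s, a, b, d⟩ := rts v (n + 1) c
  obtain ⟨r, hr, m⟩ := exists_max_image s.toFinset v (Multiset.toFinset_nonempty.2 fun e => by
    simp [e] at a)
  refine ⟨r, b r (Multiset.mem_toFinset.1 hr), fun j k e k0 => ?_⟩
  rw [d j k e k0]
  refine Multiset.sum_induction (fun x => v x ≤ v r ^ k) _ (fun x y a b => v.map_add_le a b)
    (v.map_zero.trans_le zero_le') fun x hx => ?_
  obtain ⟨u, hu, rfl⟩ := Multiset.mem_map.1 hx
  obtain ⟨u1, rfl⟩ := Multiset.mem_powersetCard.1 hu
  rw [map_multiset_prod, ← Multiset.card_map v]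
  refine Multiset.prod_le_pow_card _ _ fun y hy => ?_
  obtain ⟨z, hz, rfl⟩ := Multiset.mem_map.1 hy
  exact m z (Multiset.mem_toFinset.2 (Multiset.mem_of_le u1 hz))

/-- a small root -/
theorem sml (n : ℕ) (c : ℕ → K) (h : v (c 0) < 1) : ∃ r, Rz (n + 1) c r ∧ v r < 1 := by
  obtain ⟨s, a, b, d⟩ := rts v (n + 1) c
  by_contra! k
  rw [d 0 _ (zero_add _) n.succ_pos, ← a, Multiset.esymm, Multiset.powersetCard_self,
    Multiset.map_singleton, Multiset.sum_singleton, map_multiset_prod] at h
  refine h.not_ge (Multiset.one_le_prod_of_one_le fun y hy => ?_)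
  obtain ⟨z, hz, rfl⟩ := Multiset.mem_map.1 hy
  exact k z (b z hz)

end Vale.Agent.P014Y.F.En
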